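import Mathlib

/-! Renormalized entropy solutions of the periodic hard-sphere Boltzmann equation. -/

namespace Vale.Agent.P140

open MeasureTheory Set
open scoped ENNReal

noncomputable section

/-- Velocity space `ℝ³` with the Euclidean norm and Lebesgue measure. -/
abbrev V : Type := EuclideanSpace ℝ (Fin 3)

/-- The torus `𝕋³ = ℝ³ / ℤ³` with its Lebesgue (Haar probability) measure. -/
abbrev X : Type := Fin 3 → UnitAddCircle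

/-- The unit sphere `S²`. -/
abbrev S2 : Type := Metric.sphere (0 : V) 1

/-- Surface measure on `S²` (total mass `4π`). -/
def sig : Measure S2 := (volume : Measure V).toSphere

/-- The covering map `ℝ³ → 𝕋³`. -/
def pr (y : V) : X := fun i => ((y i : ℝ) : UnitAddCircle)

/-- `a = (v - v_*) · ω`. -/
def aa (v w : V) (ω : S2) : ℝ := inner ℝ (v - w) (ω : V)

/-- `v' = v - a ω`. -/
def vp (v w : V) (ω : S2) : V := v - aa v w ω • (ω : V)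

/-- `v_*' = v_* + a ω`. -/
def vq (v w : V) (ω : S2) : V := w + aa v w ω • (ω : V)

/-- The gain term `Q⁺(f,f)(v) = ∫∫ |a| f(v') f(v_*') dv_* dω ∈ [0,∞]`. -/
def gain (f : V → ℝ) (v : V) : ℝ≥0∞ :=
  ∫⁻ w, ∫⁻ ω, ENNReal.ofReal (|aa v w ω| * f (vp v w ω) * f (vq v w ω)) ∂sig

/-- The loss term `Q⁻(f,f)(v) = ∫∫ |a| f(v) f(v_*) dv_* dω ∈ [0,∞]`. -/
def loss (f : V → ℝ) (v : V) : ℝ≥0∞ :=
  ∫⁻ w, ∫⁻ ω, ENNReal.ofReal (|aa v w ω| * f v * f w) ∂sig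

/-- The Maxwellian `M(v) = (2π)^{-3/2} exp(-|v|²/2)`. -/
def Mx (v : V) : ℝ := (2 * Real.pi) ^ (-(3 / 2 : ℝ)) * Real.exp (-‖v‖ ^ 2 / 2)

/-- The relative entropy `H_M(F) = ∫ (F log(F/M) - F + M)` (the integrand is nonnegative). -/
def relEnt (F : X × V → ℝ) : ℝ≥0∞ :=
  ∫⁻ z, ENNReal.ofReal (F z * Real.log (F z / Mx z.2) - F z + Mx z.2)

/-- `(p - q) log (p / q)` for `p, q ≥ 0`, with its lower semicontinuous values
(`0` if `p = q = 0`, `∞` if exactly one of them vanishes). -/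
def jE (p q : ℝ) : ℝ≥0∞ :=
  if p = 0 ∧ q = 0 then 0 else if p = 0 ∨ q = 0 then ⊤
  else ENNReal.ofReal ((p - q) * Real.log (p / q))

/-- The entropy dissipation `D(F)`. -/
def dissip (F : X × V → ℝ) : ℝ≥0∞ :=
  (1 / 4) * ∫⁻ x, ∫⁻ v, ∫⁻ w, ∫⁻ ω, ENNReal.ofReal |aa v w ω| *
    jE (F (x, vp v w ω) * F (x, vq v w ω)) (F (x, v) * F (x, w)) ∂sig

/-- `∫ F (1 + |v|² + |log F|)` (with `0 |log 0| = 0`). -/
def momEnt (F : X × V → ℝ) : ℝ≥0∞ :=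
  ∫⁻ z, ENNReal.ofReal (F z * (1 + ‖z.2‖ ^ 2 + |Real.log (F z)|))

/-- A datum: `F₀ ≥ 0` measurable with `∫ F₀ (1 + |v|² + |log F₀|) < ∞`. -/
structure IsDatum (F₀ : X × V → ℝ) : Prop where
  meas : Measurable F₀
  nonneg : ∀ z, 0 ≤ F₀ z
  fin : momEnt F₀ < ⊤

/-- Test functions `φ(t,x,v)`: smooth (as functions on `ℝ × ℝ³ × ℝ³`, periodic in `x`)
and compactly supported in `ℝ × 𝕋³ × ℝ³`. -/
def IsTest (φ : ℝ × X × V → ℝ) : Prop :=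
  ContDiff ℝ (⊤ : ℕ∞) (fun p : ℝ × V × V => φ (p.1, pr p.2.1, p.2.2)) ∧ HasCompactSupport φ

/-- Test functions `φ(t,x)`: smooth and compactly supported in `ℝ × 𝕋³`. -/
def IsTestX (φ : ℝ × X → ℝ) : Prop :=
  ContDiff ℝ (⊤ : ℕ∞) (fun p : ℝ × V => φ (p.1, pr p.2)) ∧ HasCompactSupport φ

/-- `(∂_t φ + v · ∇_x φ)(t,x,v)`. -/
def transp (φ : ℝ × X × V → ℝ) (t : ℝ) (x : X) (v : V) : ℝ :=
  deriv (fun s => φ (s, x, v)) t +
    ∑ i : Fin 3, v i * deriv (fun s => φ (t, x + pr (EuclideanSpace.single i s), v)) 0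

/-- A renormalized entropy solution `F(t,x,v) = F t (x,v)`, `t ≥ 0`, with datum `F₀`. -/
structure IsSol (F₀ : X × V → ℝ) (F : ℝ → X × V → ℝ) : Prop where
  meas : Measurable (Function.uncurry F)
  nonneg : ∀ t, 0 ≤ t → ∀ z, 0 ≤ F t z
  /- (i) -/
  integrable : ∀ t, 0 ≤ t → Integrable (F t)
  weakCont : ∀ ψ : X × V → ℝ, Measurable ψ → (∃ C, ∀ z, |ψ z| ≤ C) →
    ContinuousOn (fun t => ∫ z, F t z * ψ z) (Ici 0)
  init : F 0 =ᵐ[volume] F₀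
  bound : ∀ T : ℝ, ∃ C : ℝ≥0∞, C < ⊤ ∧ ∀ t ∈ Icc 0 T, momEnt (F t) ≤ C
  /- (ii) -/
  gainInt : ∀ T : ℝ, ∫⁻ t in Icc 0 T, ∫⁻ z : X × V,
    gain (fun v => F t (z.1, v)) z.2 / ENNReal.ofReal (1 + F t z / Mx z.2) < ⊤
  lossInt : ∀ T : ℝ, ∫⁻ t in Icc 0 T, ∫⁻ z : X × V,
    loss (fun v => F t (z.1, v)) z.2 / ENNReal.ofReal (1 + F t z / Mx z.2) < ⊤
  renorm : ∀ β β' : ℝ → ℝ, (∀ s, 0 ≤ s → HasDerivWithinAt β (β' s) (Ici 0) s) →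
    ContinuousOn β' (Ici 0) → β 0 = 0 → (∃ C, ∀ s, 0 ≤ s → |β' s| ≤ C / (1 + s)) →
    ∀ φ : ℝ × X × V → ℝ, IsTest φ →
      (∫ t in Ici (0 : ℝ), ∫ z : X × V,
          Mx z.2 * β (F t z / Mx z.2) * transp φ t z.1 z.2)
        + (∫ z : X × V, Mx z.2 * β (F₀ z / Mx z.2) * φ (0, z.1, z.2))
        + (∫ t in Ici (0 : ℝ), ∫ z : X × V, β' (F t z / Mx z.2) *
            ((gain (fun v => F t (z.1, v)) z.2).toReal -
              (loss (fun v => F t (z.1, v)) z.2).toReal) * φ (t, z.1, z.2)) = 0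
  /- (iii) -/
  massLoc : ∀ φ : ℝ × X → ℝ, IsTestX φ →
      (∫ t in Ici (0 : ℝ), ∫ z : X × V,
          F t z * transp (fun p => φ (p.1, p.2.1)) t z.1 z.2)
        + (∫ z : X × V, F₀ z * φ (0, z.1)) = 0
  momentum : ∀ t, 0 ≤ t → ∫ z : X × V, F t z • z.2 = ∫ z : X × V, F₀ z • z.2
  energy : ∀ t, 0 ≤ t →
    ∫⁻ z : X × V, ENNReal.ofReal (‖z.2‖ ^ 2 * F t z) ≤
      ∫⁻ z : X × V, ENNReal.ofReal (‖z.2‖ ^ 2 * F₀ z)
  entropy : ∀ t, 0 ≤ t → relEnt (F t) + ∫⁻ s in Icc 0 t, dissip (F s) ≤ relEnt F₀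

end

end Vale.Agent.P140
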